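import Mathlib.Algebra.Homology.DerivedCategory.TStructure
import Mathlib.Algebra.Homology.DerivedCategory.SingleTriangle
import Mathlib.CategoryTheory.Triangulated.TStructure.TruncLEGT
import Vale.Agent.P287Z.O.L.Props
import Vale.Agent.P287Z.O.H409.Peel

/-!
# P287 port of P294-L, block B10: closure properties of triangulated subcategories of a derived category
-/

open CategoryTheory Limits Pretriangulated Category HomologicalComplex Triangulated

namespace Vale.Agent.P287Z.O.H157

open L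

section Tri

variable {𝒟 : Type 1} [Category.{1} 𝒟] [Preadditive 𝒟] [HasZeroObject 𝒟]
    [HasShift 𝒟 ℤ] [∀ n : ℤ, (shiftFunctor 𝒟 n).Additive] [Pretriangulated 𝒟]
    {I : 𝒟 → Prop} (hI : TriCl I)

include hI

theorem TriCl.unshift {X : 𝒟} (n : ℤ) (h : I (X⟦n⟧)) : I X :=
  hI.iso _ _ ((shiftEquiv 𝒟 n).unitIso.app X).symm (hI.shift _ (-n) h)

theorem TriCl.ext₁ {T : Triangle 𝒟} (hT : T ∈ distTriang 𝒟) (h2 : I T.obj₂) (h3 : I T.obj₃) :
    I T.obj₁ := by
  have h := inv_rot_of_distTriang _ hT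
  exact hI.ext₂ _ h (hI.shift _ (-1) h3) h2

theorem TriCl.ext₃ {T : Triangle 𝒟} (hT : T ∈ distTriang 𝒟) (h1 : I T.obj₁) (h2 : I T.obj₂) :
    I T.obj₃ := by
  have h := rot_of_distTriang _ hT
  exact hI.ext₂ _ h h2 (hI.shift _ 1 h1)

end Tri

section Der

variable {C : Type 1} [Category.{1} C] [Abelian C] [HasDerivedCategory.{1} C]
  {I : DerivedCategory C → Prop} (hI : TriCl I)

/-- the objects of `C` whose image in the derived category is in `I` -/
def Sg (I : DerivedCategory C → Prop) (Y : C) : Prop :=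
  I ((DerivedCategory.singleFunctor C 0).obj Y)

include hI

theorem Sg.iso {X Y : C} (e : X ≅ Y) (h : Sg I X) : Sg I Y :=
  hI.iso _ _ ((DerivedCategory.singleFunctor C 0).mapIso e) h

theorem Sg.zero {X : C} (h : IsZero X) : Sg I X :=
  hI.zero _ ((DerivedCategory.singleFunctor C 0).map_isZero h)

theorem Sg.sesM {S : ShortComplex C} (hS : S.ShortExact) (h1 : Sg I S.X₁) (h3 : Sg I S.X₃) :
    Sg I S.X₂ :=
  hI.ext₂ _ hS.singleTriangle_distinguished h1 h3

theorem Sg.sesL {S : ShortComplex C} (hS : S.ShortExact) (h2 : Sg I S.X₂) (h3 : Sg I S.X₃) :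
    Sg I S.X₁ :=
  TriCl.ext₁ hI hS.singleTriangle_distinguished h2 h3

theorem Sg.sesR {S : ShortComplex C} (hS : S.ShortExact) (h1 : Sg I S.X₁) (h2 : Sg I S.X₂) :
    Sg I S.X₃ :=
  TriCl.ext₃ hI hS.singleTriangle_distinguished h1 h2

theorem Sg.sing {Y : C} (h : Sg I Y) (n : ℤ) : I ((DerivedCategory.singleFunctor C n).obj Y) := by
  have e := ((DerivedCategory.singleFunctors C).shiftIso n 0 n (by lia)).app Y
  exact TriCl.unshift hI n (hI.iso _ _ e.symm h)

theorem Sg.of_single {Y : C} (n : ℤ) (h : I ((DerivedCategory.singleFunctor C n).obj Y)) :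
    Sg I Y := by
  have e := ((DerivedCategory.singleFunctors C).shiftIso n 0 n (by lia)).app Y
  exact hI.iso _ _ e (hI.shift _ n h)

theorem Sg.q_single {Y : C} (h : Sg I Y) (n : ℤ) :
    I (DerivedCategory.Q.obj ((single C (ComplexShape.up ℤ) n).obj Y)) :=
  hI.iso _ _ ((DerivedCategory.singleFunctorIsoCompQ C n).app Y) (Sg.sing hI h n)

theorem Sg.of_q_single {Y : C} (n : ℤ)
    (h : I (DerivedCategory.Q.obj ((single C (ComplexShape.up ℤ) n).obj Y))) : Sg I Y :=
  Sg.of_single hI n (hI.iso _ _ ((DerivedCategory.singleFunctorIsoCompQ C n).app Y).symm h)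

omit hI in
/-- the top triangle in the derived category -/
theorem topTD (X : CochainComplex C ℤ) (a : ℤ) [X.IsStrictlyLE a] : ∃ f g h,
    Triangle.mk (C := DerivedCategory C)
      (X := DerivedCategory.Q.obj ((single C (ComplexShape.up ℤ) a).obj (X.X a)))
      (Y := DerivedCategory.Q.obj X)
      (Z := DerivedCategory.Q.obj (H409.topQ X a)) f g h ∈ distTriang _ := by
  obtain ⟨f, g, h, hT⟩ := H409.topT X a
  exact ⟨_, _, _, DerivedCategory.Qh.map_distinguished _ hT⟩

omit hI in
theorem bdd_induct (P : ℤ → ℤ → Prop) (h0 : ∀ a b, b < a → P a b)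
    (h1 : ∀ a b, a ≤ b → P a (b - 1) → P a b) : ∀ a b, P a b := by
  intro a b
  by_cases hab : b < a
  · exact h0 a b hab
  · obtain ⟨n, hn⟩ : ∃ n : ℕ, b = a + n := ⟨(b - a).toNat, by lia⟩
    subst hn
    clear hab
    induction n with
    | zero => exact h1 _ _ (by lia) (h0 _ _ (by lia))
    | succ n ih =>
      refine h1 _ _ (by lia) ?_
      convert ih using 1
      push_cast
      ring

/-- bounded complexes with terms in `Sg I` -/
theorem Sg.complex (a b : ℤ) : ∀ (X : CochainComplex C ℤ), X.IsStrictlyGE a → X.IsStrictlyLE b →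
    (∀ i, Sg I (X.X i)) → I (DerivedCategory.Q.obj X) := by
  refine bdd_induct (fun a b => ∀ (X : CochainComplex C ℤ), X.IsStrictlyGE a → X.IsStrictlyLE b →
    (∀ i, Sg I (X.X i)) → I (DerivedCategory.Q.obj X)) ?_ ?_ a b
  · intro a b hab X h1 h2 _
    refine hI.zero _ (Functor.map_isZero _ ((IsZero.iff_id_eq_zero X).2 ?_))
    ext i
    by_cases hi : i < a
    · exact (X.isZero_of_isStrictlyGE a i hi).eq_of_src _ _
    · exact (X.isZero_of_isStrictlyLE b i (by lia)).eq_of_src _ _
  · intro a b hab ih X h1 h2 h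
    obtain ⟨f, g, k, hT⟩ := topTD X b
    refine hI.ext₂ _ hT (Sg.q_single hI (h b) b) (ih _ ?_ (H409.topQ_isStrictlyLE X b _ rfl) ?_)
    · rw [CochainComplex.isStrictlyGE_iff]
      intro i hi
      exact (X.isZero_of_isStrictlyGE a i hi).of_iso (H409.topQ_X X b i (by lia))
    · intro i
      by_cases hib : i = b
      · subst hib
        exact Sg.zero hI (H409.topQ_isZero X i)
      · exact Sg.iso hI (H409.topQ_X X b i hib).symm (h i)

/-- the complex without its top term -/
theorem Sg.topQ (a b : ℤ) (X : CochainComplex C ℤ) [X.IsStrictlyGE a] [X.IsStrictlyLE b]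
    (h : ∀ i, i ≠ b → Sg I (X.X i)) : I (DerivedCategory.Q.obj (H409.topQ X b)) := by
  refine Sg.complex hI a (b - 1) _ ?_ (H409.topQ_isStrictlyLE X b _ rfl) ?_
  · rw [CochainComplex.isStrictlyGE_iff]
    intro i hi
    by_cases hib : i = b
    · subst hib
      exact H409.topQ_isZero X i
    · exact (X.isZero_of_isStrictlyGE a i hi).of_iso (H409.topQ_X X b i hib)
  · intro i
    by_cases hib : i = b
    · subst hib
      exact Sg.zero hI (H409.topQ_isZero X i)
    · exact Sg.iso hI (H409.topQ_X X b i hib).symm (h i hib)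

/-- the top term of a bounded complex in `I`, all other terms in `Sg I` -/
theorem Sg.top (a b : ℤ) (X : CochainComplex C ℤ) [X.IsStrictlyGE a] [X.IsStrictlyLE b]
    (h : ∀ i, i ≠ b → Sg I (X.X i)) (hX : I (DerivedCategory.Q.obj X)) : Sg I (X.X b) := by
  obtain ⟨f, g, k, hT⟩ := topTD X b
  exact Sg.of_q_single hI b (TriCl.ext₁ hI hT hX (Sg.topQ hI a b X h))

/-- a bounded below complex which is exact in degrees `> N` -/
theorem Sg.cycles (a N : ℤ) (X : CochainComplex C ℤ) [X.IsStrictlyGE a]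
    (hN : ∀ i, N < i → X.ExactAt i) (h : ∀ i, i < N → Sg I (X.X i))
    (hX : I (DerivedCategory.Q.obj X)) : Sg I (X.cycles N) := by
  have h1 : X.IsLE N := by
    rw [CochainComplex.isLE_iff]
    exact hN
  have h2 : (X.truncLE N).IsStrictlyGE a := by
    rw [CochainComplex.isStrictlyGE_iff]
    intro i hi
    by_cases hiN : N < i
    · exact (X.truncLE N).isZero_of_isStrictlyLE N i hiN
    · have : Mono ((X.ιTruncLE N).f i) := by
        dsimp only [CochainComplex.ιTruncLE]
        infer_instance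
      exact (X.isZero_of_isStrictlyGE a i hi).of_mono ((X.ιTruncLE N).f i)
  have h3 : I (DerivedCategory.Q.obj (X.truncLE N)) :=
    hI.iso _ _ (asIso (DerivedCategory.Q.map (X.ιTruncLE N))).symm hX
  refine Sg.iso hI (X.truncLEXIsoCycles N) (Sg.top hI a N (X.truncLE N) ?_ h3)
  intro i hi
  by_cases hiN : i < N
  · exact Sg.iso hI (X.truncLEXIso N i hiN).symm (h i hiN)
  · exact Sg.zero hI ((X.truncLE N).isZero_of_isStrictlyLE N i (by lia))

/-- devissage of bounded objects -/
theorem Sg.bounded (h : ∀ Y : C, Sg I Y) (X : DerivedCategory C)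
    (hX : (DerivedCategory.TStructure.t (C := C)).bounded X) : I X := by
  obtain ⟨⟨a, ha⟩, ⟨b, hb⟩⟩ := hX
  obtain ⟨K, hK, hK', ⟨e⟩⟩ := X.exists_iso_Q_obj_of_isGE_of_isLE a b
  exact hI.iso _ _ e.symm (Sg.complex hI a b K hK hK' fun i => h _)

end Der

end Vale.Agent.P287Z.O.H157
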