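import Vale.Agent.P287Z.O.H157.Abs

/-!
# P287 port of P294-L, block B10: cycles of acyclic complexes
-/

open CategoryTheory Limits Pretriangulated Category HomologicalComplex Triangulated

namespace Vale.Agent.P287Z.O.H157

open L

section

variable {C : Type 1} [Category.{1} C] [Abelian C]

theorem iCycles_toCycles (X : CochainComplex C ℤ) (k l : ℤ) : X.iCycles k ≫ X.toCycles k l = 0 := by
  rw [← cancel_mono (X.iCycles l), assoc, toCycles_i, iCycles_d, zero_comp]

/-- `0 → Z^k → X^k → Z^{k+1} → 0` -/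
noncomputable def cycS (X : CochainComplex C ℤ) (k l : ℤ) : ShortComplex C :=
  ShortComplex.mk (X.iCycles k) (X.toCycles k l) (iCycles_toCycles X k l)

theorem cycS_shortExact (X : CochainComplex C ℤ) (k l : ℤ) (h : k + 1 = l) (hl : X.ExactAt l) :
    (cycS X k l).ShortExact where
  exact := by
    refine ShortComplex.exact_of_f_is_kernel _ (KernelFork.IsLimit.ofι _ _
      (fun {A} (g : A ⟶ X.X k) (hg : g ≫ X.toCycles k l = 0) =>
        X.liftCycles g l (by simpa using h) ?_) (fun {A} g hg => ?_)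
      (fun {A} (g : A ⟶ X.X k) hg (m : A ⟶ X.cycles k) (hm : m ≫ X.iCycles k = g) => ?_))
    · rw [← toCycles_i, ← assoc, hg, zero_comp]
    · exact liftCycles_i _ _ _ _ _
    · exact (cancel_mono (X.iCycles k)).1 (hm.trans (liftCycles_i _ _ _ _ _).symm)
  mono_f := inferInstanceAs (Mono (X.iCycles k))
  epi_g := by
    have h1 := (X.exactAt_iff l).1 hl
    have h2 : IsZero (X.homology l) := by
      rw [← X.exactAt_iff_isZero_homology]
      exact hl
    exact Preadditive.epi_of_isZero_cokernel' _ (X.homologyIsCokernel k l (by simp; lia)) h2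

variable [HasDerivedCategory.{1} C]
  {I : DerivedCategory C → Prop} (hI : TriCl I)

include hI

/-- in an acyclic complex with terms in `Sg I`, all cycles are in `Sg I` if one of them is -/
theorem Sg.acyclic (X : CochainComplex C ℤ) (hX : ∀ k, X.ExactAt k) (h : ∀ k, Sg I (X.X k))
    (N : ℤ) (hN : Sg I (X.cycles N)) (k : ℤ) (hk : k ≤ N) : Sg I (X.cycles k) := by
  obtain ⟨n, rfl⟩ : ∃ n : ℕ, N = k + n := ⟨(N - k).toNat, by lia⟩
  clear hk
  induction n with
  | zero => simpa using hN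
  | succ n ih =>
    refine ih (Sg.sesL hI (cycS_shortExact X (k + n) (k + (n + 1 : ℕ)) (by push_cast; ring)
      (hX _)) (h _) hN)

/-- comparison of an acyclic complex with a bounded below complex -/
theorem Sg.compare (X Y : CochainComplex C ℤ) (f : X ⟶ Y) (N : ℤ) (hf : ∀ k, N ≤ k → IsIso (f.f k))
    (hY : ∀ k, Y.ExactAt k) (hXI : ∀ k, Sg I (X.X k)) (hYI : ∀ k, Sg I (Y.X k))
    (a : ℤ) (ha : X.IsStrictlyGE a) (hX : I (DerivedCategory.Q.obj X)) (k : ℤ) :
    Sg I (Y.cycles k) := by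
  obtain ⟨M, hM, hkM⟩ : ∃ M : ℤ, N ≤ M ∧ k ≤ M := ⟨max N k, le_max_left _ _, le_max_right _ _⟩
  refine Sg.acyclic hI Y hY hYI M ?_ k hkM
  have h1 : IsIso (cyclesMap f M) := by
    refine ShortComplex.isIso_cyclesMap_of_isIso_of_mono' _ (hf M hM) ?_
    have := hf ((ComplexShape.up ℤ).next M) (by simp; lia)
    exact inferInstanceAs (Mono (f.f ((ComplexShape.up ℤ).next M)))
  refine Sg.iso hI (asIso (cyclesMap f M)) (Sg.cycles hI a M X ?_ (fun i _ => hXI i) hX)
  intro i hi
  have h2 : ∀ j, N ≤ j → IsIso (f.f j) := hf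
  have i1 := hf ((ComplexShape.up ℤ).prev i) (by simp; lia)
  have i2 := hf i (by lia)
  have i3 := hf ((ComplexShape.up ℤ).next i) (by simp; lia)
  have e : X.sc i ≅ Y.sc i :=
    ShortComplex.isoMk (@asIso _ _ _ _ (f.f ((ComplexShape.up ℤ).prev i)) i1)
      (@asIso _ _ _ _ (f.f i) i2)
      (@asIso _ _ _ _ (f.f ((ComplexShape.up ℤ).next i)) i3) (f.comm _ _) (f.comm _ _)
  have := hY i
  rw [exactAt_iff] at this ⊢
  exact (ShortComplex.exact_iff_of_iso e).2 this

end

end Vale.Agent.P287Z.O.H157
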