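import Vale.Agent.P287Z.O.H157.Inc

/-!
# P287 port of P294-L, block B10: essential surjectivity
-/

open CategoryTheory Limits Pretriangulated Category MvPolynomial HomologicalComplex

namespace Vale.Agent.P287Z.O.H157

open L V

variable (W : MvPolynomial (Fin 6) ℂ) [(grA W).ContainsZero] [(grA W).IsClosedUnderKernels]
  [(grA W).IsClosedUnderCokernels] [(grA W).IsClosedUnderFiniteProducts] [(tors W).IsSerreClass]
  [FrOK W]

/-- the complex of sheaves -/
noncomputable abbrev pc (K : CochainComplex (GA W) ℤ) : CochainComplex (Coh W) ℤ :=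
  ((piA W).mapHomologicalComplex (ComplexShape.up ℤ)).obj K

theorem pc_exactAt (hA : AcySt W) {n : ℕ} (E : GMF W n) (k : ℤ) : (pc W (TT E)).ExactAt k := by
  rw [exactAt_iff' (pc W (TT E)) (k - 1) k (k + 1) (by simp) (by simp)]
  exact (hA E (k - 1) k (k + 1) (by ring) rfl).map (piA W)

/-- generators of large position have degree `≤ 2 c` -/
theorem exists_large {n : ℕ} (E : GMF W n) (c : ℤ) :
    ∃ N : ℤ, ∀ k, N ≤ k → ∀ i, E.p i - 3 * k ≤ 2 * c := by
  obtain ⟨M, hM⟩ := (Set.finite_range E.p).bddAbove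
  refine ⟨max 0 (M - 2 * c), fun k hk i => ?_⟩
  have h1 : E.p i ≤ M := hM ⟨i, rfl⟩
  have h2 := le_max_left 0 (M - 2 * c)
  have h3 := le_max_right 0 (M - 2 * c)
  linarith

theorem exists_small {n : ℕ} (E : GMF W n) (c : ℤ) :
    ∃ N : ℤ, ∀ k, k < N → ∀ i, 2 * c < E.p i - 3 * k := by
  obtain ⟨M, hM⟩ := (Set.finite_range E.p).bddBelow
  refine ⟨min 0 (M - 2 * c), fun k hk i => ?_⟩
  have h1 : M ≤ E.p i := hM ⟨i, rfl⟩
  have h2 := min_le_left 0 (M - 2 * c)
  have h3 := min_le_right 0 (M - 2 * c)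
  linarith

variable {W} {I : DerivedCategory (Coh W) → Prop} (hI : TriCl I)
  (hFr : ∀ {r : ℕ} (q : Fin r → ℤ), Sg I ((piA W).obj (FrA W q)))

include hI hFr

/-- the cycles of the sheafified complex `T(E)` -/
theorem sg_cycles (hA : AcySt W) {n : ℕ} (E : GMF W n) (hE : I (FD E)) (k : ℤ) :
    Sg I ((pc W (TT E)).cycles k) := by
  obtain ⟨N, hN⟩ := exists_large W E 0
  obtain ⟨a, ha⟩ := exists_small W E 0
  refine Sg.compare hI (pc W (TL E 0)) (pc W (TT E))
    (((piA W).mapHomologicalComplex (ComplexShape.up ℤ)).map (inc E 0)) N (fun k hk => ?_)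
    (pc_exactAt W hA E) (fun k => hFr _) (fun k => hFr _) a ?_ hE k
  · have : IsIso ((inc E 0).f k) :=
      isIso_incX E _ _ k (hN k hk) (fun _ => trivial)
    exact inferInstanceAs (IsIso ((piA W).map ((inc E 0).f k)))
  · rw [CochainComplex.isStrictlyGE_iff]
    intro k hk
    have h1 : IsZero ((TL E 0).X k) := by
      rw [IsZero.iff_id_eq_zero]
      refine FrA.hom_ext W fun i hi => ?_
      have h2 : qsel E (· ≤ 2 * 0) k i = 1 := if_neg (not_le.2 (ha k hk i))
      rw [h2] at hi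
      lia
    exact (piA W).map_isZero h1

/-- the last syzygy -/
theorem sg_last (hA : AcySt W) {n : ℕ} (E : GMF W n) (hE : I (FD E)) {M : GA W}
    (i : M ⟶ (TT E).X 1) (w : i ≫ (TT E).d 1 2 = 0) [Mono i]
    (hi : (ShortComplex.mk i ((TT E).d 1 2) w).Exact) : Sg I ((piA W).obj M) := by
  have h1 : (ShortComplex.mk ((piA W).map i) ((pc W (TT E)).d 1 2) (by
      change (piA W).map i ≫ (piA W).map ((TT E).d 1 2) = 0
      rw [← Functor.map_comp, w, Functor.map_zero])).Exact := hi.map (piA W)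
  have h2 : Mono ((piA W).map i) := inferInstance
  have h3 := h1.fIsKernel
  have h4 := (pc W (TT E)).cyclesIsKernel 1 2 (by simp)
  exact Sg.iso hI (IsLimit.conePointUniqueUpToIso h4 h3) (sg_cycles hI hFr hA E hE 1)

theorem sg_syz {M M' : GA W} (h : Syz W M M') (h' : Sg I ((piA W).obj M')) :
    Sg I ((piA W).obj M) := by
  obtain ⟨r, q, f, g, w, hS⟩ := h
  exact Sg.sesR hI (hS.map_of_exact (piA W)) h' (hFr q)

/-- all coherent sheaves -/
theorem sg_all (hA : AcySt W) (hG : GldSt W) (hE : ∀ {n : ℕ} (E : GMF W n), I (FD E))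
    (Y : Coh W) : Sg I Y := by
  obtain ⟨M, ⟨e⟩⟩ : ∃ M : GA W, Nonempty ((piA W).obj M ≅ Y) :=
    ⟨(piA W).objPreimage Y, ⟨(piA W).objObjPreimageIso Y⟩⟩
  obtain ⟨M₀, M₁, M₂, M₃, M₄, h0, h1, h2, h3, h4, n, E, i, w, hm, hi⟩ := hG M
  exact Sg.iso hI e (sg_syz hI hFr h0 <| sg_syz hI hFr h1 (sg_syz hI hFr h2 (sg_syz hI hFr h3 (sg_syz hI hFr h4
    (sg_last hI hFr hA E (hE E) i w hi)))))

/-- all bounded objects -/
theorem all_bounded (hA : AcySt W) (hG : GldSt W) (hE : ∀ {n : ℕ} (E : GMF W n), I (FD E))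
    (X : DerivedCategory (Coh W))
    (hX : (DerivedCategory.TStructure.t (C := Coh W)).bounded X) : I X :=
  Sg.bounded hI (sg_all hI hFr hA hG hE) X hX

end Vale.Agent.P287Z.O.H157
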