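import Vale.Agent.P287Z.O.H157.Cyc
import Vale.Agent.P287Z.O.L.B2

/-!
# P287 port of P294-L, block B10: the image of Orlov's functor is a triangulated subcategory
-/

open CategoryTheory Limits Pretriangulated Category MvPolynomial

namespace Vale.Agent.P287Z.O.H157

open L V

section gmf

variable {W : MvPolynomial (Fin 6) ℂ} {m n : ℕ}

/-- the mapping cone of a closed map -/
noncomputable def coneG (E : GMF W m) (F : GMF W n) (f : Matrix (Fin n) (Fin m) (MvPolynomial (Fin 6) ℂ))
    (hf : Cl E F f) : GMF W (n + m) where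
  p := Fin.append F.p (fun j => E.p j - 3)
  d := Matrix.reindex finSumFinEquiv finSumFinEquiv (Matrix.fromBlocks F.d f 0 (-E.d))
  deg i j := by
    obtain ⟨i, rfl⟩ := finSumFinEquiv.surjective i
    obtain ⟨j, rfl⟩ := finSumFinEquiv.surjective j
    rw [Matrix.reindex_apply, Matrix.submatrix_apply, Equiv.symm_apply_apply,
      Equiv.symm_apply_apply]
    rcases i with i | i <;> rcases j with j | j
    · simpa using F.deg i j
    · have := hf.1 i j
      simp only [finSumFinEquiv_apply_left, finSumFinEquiv_apply_right, Fin.append_left,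
        Fin.append_right, Matrix.fromBlocks_apply₁₂]
      convert this using 1
      ring
    · exact isWeightedHomogeneous_zero _ _ _
    · have := E.deg i j
      simp only [finSumFinEquiv_apply_right, Fin.append_right, Matrix.fromBlocks_apply₂₂,
        Matrix.neg_apply]
      convert hga_neg this using 1
      ring
  sq := by
    have h1 : Matrix.fromBlocks F.d f 0 (-E.d) * Matrix.fromBlocks F.d f 0 (-E.d) =
        W • (1 : Matrix (Fin n ⊕ Fin m) (Fin n ⊕ Fin m) (MvPolynomial (Fin 6) ℂ)) := by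
      rw [Matrix.fromBlocks_multiply]
      simp only [Matrix.mul_zero, add_zero, Matrix.zero_mul, zero_add, Matrix.mul_neg,
        Matrix.neg_mul, neg_neg, F.sq, E.sq, hf.2]
      rw [add_neg_cancel, ← Matrix.fromBlocks_one, Matrix.fromBlocks_smul, smul_zero, smul_zero]
    rw [Matrix.reindex_apply, Matrix.submatrix_mul_equiv, h1]
    ext i j
    simp [Matrix.one_apply]

/-- the shift of a graded matrix factorization -/
noncomputable def shG (E : GMF W n) (k : ℤ) : GMF W n where
  p i := E.p i - 3 * k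
  d := (k.negOnePow : ℤ) • E.d
  deg i j := by
    rcases Int.even_or_odd k with hk | hk
    · rw [Int.negOnePow_even k hk]
      have := E.deg i j
      simp only [Units.val_one, one_smul]
      convert this using 1
      ring
    · rw [Int.negOnePow_odd k hk]
      have := hga_neg (E.deg i j)
      simp only [Units.val_neg, Units.val_one, neg_smul, one_smul, Matrix.neg_apply]
      convert this using 1
      ring
  sq := by
    rcases Int.even_or_odd k with hk | hk
    · rw [Int.negOnePow_even k hk]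
      simpa using E.sq
    · rw [Int.negOnePow_odd k hk]
      simpa using E.sq

/-- the zero factorization -/
noncomputable def zeroG (W : MvPolynomial (Fin 6) ℂ) : GMF W 0 where
  p := Fin.elim0
  d := 0
  deg i := i.elim0
  sq := by ext i; exact i.elim0

end gmf

section

variable (W : MvPolynomial (Fin 6) ℂ) [(grA W).ContainsZero] [(grA W).IsClosedUnderKernels]
  [(grA W).IsClosedUnderCokernels] [(grA W).IsClosedUnderFiniteProducts] [(tors W).IsSerreClass]
  [FrOK W]

/-- the image of Orlov's functor -/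
def Im (Y : DerivedCategory (Coh W)) : Prop := ∃ (n : ℕ) (E : GMF W n), Nonempty (FD E ≅ Y)

instance : (QPi W).Additive := by unfold QPi; infer_instance

theorem isZero_TX {n : ℕ} (E : GMF W n) (P : ℤ → Prop) [DecidablePred P] [Cvx P]
    (h : ∀ k i, ¬ Even (qsel E P k i)) (k : ℤ) : IsZero ((T E P).X k) := by
  rw [IsZero.iff_id_eq_zero]
  refine FrA.hom_ext W fun i hi => ?_
  exact absurd ⟨_, hi.trans (two_mul _)⟩ (h k i)

theorem im_triCl (hF : FullSt W) (hC : ConeSt W) (hS : ShiftSt W) : TriCl (Im W) where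
  iso := fun X Y e ⟨n, E, ⟨e'⟩⟩ => ⟨n, E, ⟨e' ≪≫ e⟩⟩
  zero := fun X hX => by
    refine ⟨0, zeroG W, ⟨(?_ : IsZero _).iso hX⟩⟩
    refine Functor.map_isZero _ ((IsZero.iff_id_eq_zero _).2 ?_)
    ext1 k
    exact (isZero_TX W (zeroG W) _ (fun k i => i.elim0) k).eq_of_src _ _
  shift := fun X k ⟨n, E, ⟨e⟩⟩ => by
    obtain ⟨e'⟩ := hS E (shG E k) k (fun _ => rfl) rfl
    exact ⟨n, shG E k, ⟨e' ≪≫ (shiftFunctor _ k).mapIso e⟩⟩
  ext₂ := fun T hT ⟨m, E₁, ⟨e₁⟩⟩ ⟨n, E₃, ⟨e₃⟩⟩ => by
    obtain ⟨e⟩ := hS E₃ (shG E₃ (-1)) (-1) (fun _ => rfl) rfl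
    have hT' := inv_rot_of_distTriang _ hT
    let a : FD (shG E₃ (-1)) ≅ T.invRotate.obj₁ := e ≪≫ (shiftFunctor _ (-1)).mapIso e₃
    let b : FD E₁ ≅ T.invRotate.obj₂ := e₁
    obtain ⟨f, hf, hfg⟩ := hF (shG E₃ (-1)) E₁ (a.hom ≫ T.invRotate.mor₁ ≫ b.inv)
    obtain ⟨hi, h, hd⟩ := hC (shG E₃ (-1)) E₁ f hf (coneG _ _ f hf) rfl rfl
    refine ⟨_, coneG _ _ f hf, ⟨Triangle.π₃.mapIso (isoTriangleOfIso₁₂ _ _ hd hT' a b ?_)⟩⟩
    change FDmap hf ≫ b.hom = a.hom ≫ T.invRotate.mor₁
    rw [hfg, assoc, assoc, b.inv_hom_id, comp_id]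

end

end Vale.Agent.P287Z.O.H157
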