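import Vale.Agent.P287Z.O.H157.Img
import Vale.Agent.P287Z.O.L.Twist

/-!
# P287 port of P294-L, block B10: the inclusion of `T_{≤ c}(E)` in `T(E)`
-/

open CategoryTheory Limits Pretriangulated Category MvPolynomial

namespace Vale.Agent.P287Z.O.H157

open L V

section inc

variable {W : MvPolynomial (Fin 6) ℂ} [FrOK W] {n : ℕ}

omit [FrOK W] in
theorem hgM_inc (E : GMF W n) (P Q : ℤ → Prop) [DecidablePred P] [DecidablePred Q]
    (k : ℤ) : HgM (qsel E P k) (qsel E Q k)
      (mask (fun i => Q (E.p i - 3 * k)) (fun j => P (E.p j - 3 * k)) 1) := fun i j => by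
  unfold mask qsel
  by_cases hij : i = j
  · subst hij
    rw [Matrix.one_apply_eq]
    split_ifs with h1 h2 h3
    · simpa using hga_one
    all_goals first | exact isWeightedHomogeneous_zero _ _ _ | (exfalso; tauto)
  · rw [Matrix.one_apply_ne hij, ite_self]
    exact isWeightedHomogeneous_zero _ _ _

/-- the components of the inclusions / projections -/
noncomputable def incX (E : GMF W n) (P Q : ℤ → Prop) [DecidablePred P] [DecidablePred Q]
    (k : ℤ) : TX E P k ⟶ TX E Q k := matA W _ (hgM_inc E P Q k)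

theorem incX_comp (E : GMF W n) (P Q : ℤ → Prop) [DecidablePred P] [DecidablePred Q]
    (k : ℤ) (h : ∀ i, P (E.p i - 3 * k)) (h' : ∀ i, Q (E.p i - 3 * k)) :
    incX E P Q k ≫ incX E Q P k = 𝟙 _ := by
  refine (matA_comp W _ _ _ _).trans ?_
  have h1 : mask (fun i => P (E.p i - 3 * k)) (fun j => Q (E.p j - 3 * k)) 1 *
      mask (fun i => Q (E.p i - 3 * k)) (fun j => P (E.p j - 3 * k)) 1 =
      (1 : Matrix (Fin n) (Fin n) (MvPolynomial (Fin 6) ℂ)) := by
    have h2 : mask (fun i => P (E.p i - 3 * k)) (fun j => Q (E.p j - 3 * k)) 1 =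
      (1 : Matrix (Fin n) (Fin n) (MvPolynomial (Fin 6) ℂ)) := by
      ext1 i j
      exact if_pos ⟨h i, h' j⟩
    have h3 : mask (fun i => Q (E.p i - 3 * k)) (fun j => P (E.p j - 3 * k)) 1 =
      (1 : Matrix (Fin n) (Fin n) (MvPolynomial (Fin 6) ℂ)) := by
      ext1 i j
      exact if_pos ⟨h' i, h j⟩
    rw [h2, h3, mul_one]
  exact (matA_congr W _ HgM.one h1).trans
    (matA_one W _)

theorem isIso_incX (E : GMF W n) (P Q : ℤ → Prop) [DecidablePred P] [DecidablePred Q]
    (k : ℤ) (h : ∀ i, P (E.p i - 3 * k)) (h' : ∀ i, Q (E.p i - 3 * k)) :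
    IsIso (incX E P Q k) :=
  ⟨incX E Q P k, incX_comp E P Q k h h', incX_comp E Q P k h' h⟩

/-- the inclusion `T_{≤ c}(E) → T(E)` -/
noncomputable def inc (E : GMF W n) (c : ℤ) : TL E c ⟶ TT E where
  f k := incX E (· ≤ 2 * c) (fun _ => True) k
  comm' k l h := by
    have h1 : k + 1 = l := h
    rw [T_d _ _ _ _ h1, T_d _ _ _ _ h1]
    unfold Td incX
    refine (matA_comp W _ _ _ _).trans (Eq.trans ?_ (matA_comp W _ _ _ _).symm)
    congr 1
    ext1 i j
    rw [Matrix.mul_apply, Matrix.mul_apply]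
    simp only [mask, true_and, and_true, if_true]
    by_cases hj : E.p j - 3 * k ≤ 2 * c
    · simp only [hj, if_true, and_true, Matrix.one_apply, mul_ite, mul_one, mul_zero,
        Finset.sum_ite_eq', Finset.mem_univ]
      by_cases hi : E.p i - 3 * l ≤ 2 * c
      · rw [Finset.sum_eq_single i (fun b _ hb => ?_) (fun h => absurd (Finset.mem_univ _) h)]
        · simp [hi]
        · simp [Ne.symm hb]
      · rw [hg_neg (E.deg i j) (by linarith), Finset.sum_eq_zero]
        intro x _
        by_cases hx : i = x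
        · subst hx
          simp [hi]
        · simp [hx]
    · simp [hj]

end inc

end Vale.Agent.P287Z.O.H157
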